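import Vale.Agent.Lib.P154N.D5.L0
import Vale.Agent.Lib.P154N.D5.L1
import Vale.Agent.Lib.P154N.D5.L2
import Vale.Agent.Lib.P154N.D5.L3
import Vale.Agent.Lib.P154N.D5.L4
import Vale.Agent.Lib.P154N.D5.L5
import Vale.Agent.Lib.P154N.D5.L6
import Vale.Agent.Lib.P154N.D5.L7
import Vale.Agent.Lib.P154N.D5.L8
import Vale.Agent.Lib.P154N.D5.L9
import Vale.Agent.Lib.P154N.D5.L10
import Vale.Agent.Lib.P154N.D5.L11
import Vale.Agent.Lib.P154N.D5.L12
import Vale.Agent.Lib.P154N.D5.L13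
import Vale.Agent.Lib.P154N.D5.L14
import Vale.Agent.Lib.P154N.D5.L15
import Vale.Agent.Lib.P154N.D5.L16
import Vale.Agent.Lib.P154N.D5.L17
import Vale.Agent.Lib.P154N.D5.L18
import Vale.Agent.Lib.P154N.D5.L19
import Vale.Agent.Lib.P154N.D5.L20
import Vale.Agent.Lib.P154N.D5.L21
import Vale.Agent.Lib.P154N.D5.L22
import Vale.Agent.Lib.P154N.D5.L23
import Vale.Agent.Lib.P154N.D5.L24
import Vale.Agent.Lib.P154N.D5.L25
import Vale.Agent.Lib.P154N.D5.L26
import Vale.Agent.Lib.P154N.D5.L27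
import Vale.Agent.Lib.P154N.D5.L28
import Vale.Agent.Lib.P154N.D5.L29
import Vale.Agent.Lib.P154N.D5.L30
import Vale.Agent.Lib.P154N.D5.L31
import Vale.Agent.Lib.P154N.D5.L32
import Vale.Agent.Lib.P154N.D5.L33
import Vale.Agent.Lib.P154N.D5.L34
import Vale.Agent.Lib.P154N.D5.L35
import Vale.Agent.Lib.P154N.D5.L36
import Vale.Agent.Lib.P154N.D5.L37
import Vale.Agent.Lib.P154N.D5.L38
import Vale.Agent.Lib.P154N.D5.L39
import Vale.Agent.Lib.P154N.D5.L40
import Vale.Agent.Lib.P154N.D5.L41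
import Vale.Agent.Lib.P154N.D5.L42
import Vale.Agent.Lib.P154N.D5.L43
import Vale.Agent.Lib.P154N.D5.L44
import Vale.Agent.Lib.P154N.D5.L45
import Vale.Agent.Lib.P154N.D5.L46
import Vale.Agent.Lib.P154N.D5.L47
import Vale.Agent.Lib.P154N.D5.L48
import Vale.Agent.Lib.P154N.D5.L49
import Vale.Agent.Lib.P154N.D5.L50
import Vale.Agent.Lib.P154N.D5.L51
import Vale.Agent.Lib.P154N.D5.L52
import Vale.Agent.Lib.P154N.D5.L53
import Vale.Agent.Lib.P154N.D5.L54
import Vale.Agent.Lib.P154N.D5.L55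
import Vale.Agent.Lib.P154N.D5.L56
import Vale.Agent.Lib.P154N.D5.L57
import Vale.Agent.Lib.P154N.D5.L58
import Vale.Agent.Lib.P154N.D5.L59
import Vale.Agent.Lib.P154N.D5.L60
import Vale.Agent.Lib.P154N.D5.L61
import Vale.Agent.Lib.P154N.D5.L62
import Vale.Agent.Lib.P154N.D5.L63
import Vale.Agent.Lib.P154N.D5.L64
import Vale.Agent.Lib.P154N.D5.L65
import Vale.Agent.Lib.P154N.D5.L66
import Vale.Agent.Lib.P154N.D5.L67
import Vale.Agent.Lib.P154N.D5.L68
import Vale.Agent.Lib.P154N.D5.L69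
import Vale.Agent.Lib.P154N.D5.L70
import Vale.Agent.Lib.P154N.D5.L71
import Vale.Agent.Lib.P154N.D5.L72
import Vale.Agent.Lib.P154N.D5.L73
import Vale.Agent.Lib.P154N.D5.L74
import Vale.Agent.Lib.P154N.D5.L75
import Vale.Agent.Lib.P154N.D5.L76
import Vale.Agent.Lib.P154N.D5.L77
import Vale.Agent.Lib.P154N.D5.L78
import Vale.Agent.Lib.P154N.D5.L79
import Vale.Agent.Lib.P154N.D5.L80
import Vale.Agent.Lib.P154N.D5.L81
import Vale.Agent.Lib.P154N.D5.L82
import Vale.Agent.Lib.P154N.D5.L83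
import Vale.Agent.Lib.P154N.D5.L84
import Vale.Agent.Lib.P154N.D5.L85
import Vale.Agent.Lib.P154N.D5.L86
import Vale.Agent.Lib.P154N.D5.L87
import Vale.Agent.Lib.P154N.D5.L88
import Vale.Agent.Lib.P154N.D5.L89
import Vale.Agent.Lib.P154N.D5.L90
import Vale.Agent.Lib.P154N.D5.L91
import Vale.Agent.Lib.P154N.D5.L92
import Vale.Agent.Lib.P154N.D5.L93
import Vale.Agent.Lib.P154N.D5.L94
import Vale.Agent.Lib.P154N.D5.L95
import Vale.Agent.Lib.P154N.D5.L96
import Vale.Agent.Lib.P154N.D5.L97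
import Vale.Agent.Lib.P154N.D5.L98
import Vale.Agent.Lib.P154N.D5.L99
import Vale.Agent.Lib.P154N.D5.L100
import Vale.Agent.Lib.P154N.D5.L101

/-!
# The merge inequalities for the tree with 5 children
-/

namespace Vale.Agent.Lib.P154N.D5

open Vale.Agent.Lib.P154 Vale.Agent.Lib.P154K Vale.Agent.Lib.P154Neg Tp

noncomputable section

/-- The value of the scale. -/
abbrev ss : ℝ := ((9 : ℕ) : ℝ) / ((20 : ℕ) : ℝ)

theorem root2_0 : HoldsN X2 (chamberN 9 20) (chamberN 9 20) :=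
  (HoldsN.splitA (HoldsN.splitB (HoldsN.splitA (HoldsN.splitA (HoldsN.splitB (HoldsN.splitB l0 l1) l2) (HoldsN.splitB (HoldsN.splitB l3 l4) l5)) (HoldsN.splitB (HoldsN.splitB l6 l7) (HoldsN.splitA (HoldsN.splitB (HoldsN.splitA l8 l9) l10) l11))) (HoldsN.splitB l12 (HoldsN.splitA (HoldsN.splitA (HoldsN.splitB (HoldsN.splitA (HoldsN.splitB l13 l14) (HoldsN.splitB l15 l16)) l17) (HoldsN.splitB (HoldsN.splitB l18 (HoldsN.splitA (HoldsN.splitA l19 l20) l21)) l22)) (HoldsN.splitB (HoldsN.splitA l23 (HoldsN.splitA (HoldsN.splitB l24 l25) (HoldsN.splitB l26 l27))) l28)))) (HoldsN.splitA (HoldsN.splitB (HoldsN.splitB (HoldsN.splitB l29 l30) l31) (HoldsN.splitA (HoldsN.splitB l32 (HoldsN.splitB (HoldsN.splitB l40 l41) l53)) (HoldsN.splitA (HoldsN.splitB (HoldsN.splitB (HoldsN.splitB (HoldsN.splitB l33 l34) l35) (HoldsN.splitB l36 (HoldsN.splitB l37 l38))) (HoldsN.splitB (HoldsN.splitB (HoldsN.splitA (HoldsN.splitB l42 l43) (HoldsN.splitA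 l44 (HoldsN.splitB l45 (HoldsN.splitB l46 l47)))) l48) l54)) (HoldsN.splitB l39 (HoldsN.splitB (HoldsN.splitB (HoldsN.splitA (HoldsN.splitA l49 l50) l51) l52) l55))))) (HoldsN.splitB (HoldsN.splitA (HoldsN.splitB (HoldsN.splitB l56 (HoldsN.splitA l57 (HoldsN.splitA (HoldsN.splitB (HoldsN.splitB l58 l59) l60) l61))) l62) (HoldsN.splitB (HoldsN.splitB l63 l64) l65)) (HoldsN.splitB l66 (HoldsN.splitA (HoldsN.splitB (HoldsN.splitA (HoldsN.splitB (HoldsN.splitA l67 (HoldsN.splitA (HoldsN.splitB l68 (HoldsN.splitB l69 l70)) (HoldsN.splitB l71 (HoldsN.splitB l72 l73)))) l74) (HoldsN.splitB l75 (HoldsN.splitA (HoldsN.splitB (HoldsN.splitA l76 l77) l78) l79))) l80) (HoldsN.splitB (HoldsN.splitB (HoldsN.splitA l81 (HoldsN.splitA (HoldsN.splitB l82 l83) l84)) l85) l86))))))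

theorem root2_1 : HoldsN X2 (chamberN 9 20) (chamberNR 9 20) :=
  (HoldsN.splitA (HoldsN.splitB (HoldsN.splitA (HoldsN.splitA (HoldsN.splitB (HoldsN.splitB (HoldsN.splitA l87 (HoldsN.splitB l88 l89)) l90) (HoldsN.splitA l91 (HoldsN.splitB l92 (HoldsN.splitB l93 l94)))) (HoldsN.splitB (HoldsN.splitB l95 l96) l97)) (HoldsN.splitB (HoldsN.splitB (HoldsN.splitA (HoldsN.splitB l98 l99) (HoldsN.splitA (HoldsN.splitB l100 l101) l102)) l103) (HoldsN.splitA (HoldsN.splitB (HoldsN.splitA l104 (HoldsN.splitB l105 l106)) l107) (HoldsN.splitA (HoldsN.splitB l108 (HoldsN.splitB l109 l110)) l111)))) (HoldsN.splitB l112 (HoldsN.splitA (HoldsN.splitA (HoldsN.splitA (HoldsN.splitB (HoldsN.splitB l113 l114) l117) (HoldsN.splitB (HoldsN.splitB l115 l116) (HoldsN.splitA (HoldsN.splitB l118 l119) l120))) (HoldsN.splitB (HoldsN.splitB l121 (HoldsN.splitA (HoldsN.splitA l122 l123) l124)) l125)) (HoldsN.splitA (HoldsN.splitB l126 l131) (HoldsN.splitA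 (HoldsN.splitB (HoldsN.splitB l127 l128) (HoldsN.splitB (HoldsN.splitB l132 l133) l134)) (HoldsN.splitB (HoldsN.splitB l129 l130) l135)))))) (HoldsN.splitA (HoldsN.splitB (HoldsN.splitB (HoldsN.splitB (HoldsN.splitA (HoldsN.splitB l136 (HoldsN.splitA (HoldsN.splitA (HoldsN.splitB l137 l138) l139) (HoldsN.splitB l140 l141))) (HoldsN.splitA (HoldsN.splitB l142 l143) (HoldsN.splitB l144 (HoldsN.splitA l145 l146)))) l147) (HoldsN.splitA (HoldsN.splitB l148 (HoldsN.splitB l149 l150)) l151)) (HoldsN.splitA (HoldsN.splitB l152 (HoldsN.splitB (HoldsN.splitB l160 l161) (HoldsN.splitA (HoldsN.splitA (HoldsN.splitB (HoldsN.splitB l174 l175) l176) l177) (HoldsN.splitB (HoldsN.splitB l178 l179) l180)))) (HoldsN.splitA (HoldsN.splitB (HoldsN.splitB (HoldsN.splitB (HoldsN.splitB l153 l154) l155) (HoldsN.splitB l156 (HoldsN.splitB l157 l158))) (HoldsN.splitB (HoldsN.splitB (HoldsN.splitA (HoldsN.splitB l162 l163) (HoldsN.splitA l164 (HoldsN.splitB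 l165 (HoldsN.splitB l166 l167)))) l168) (HoldsN.splitB l181 (HoldsN.splitA l182 l183)))) (HoldsN.splitB l159 (HoldsN.splitB (HoldsN.splitB (HoldsN.splitA (HoldsN.splitA l169 l170) (HoldsN.splitB l171 l172)) l173) (HoldsN.splitA l184 (HoldsN.splitB l185 l186))))))) (HoldsN.splitB (HoldsN.splitA (HoldsN.splitB (HoldsN.splitB l187 (HoldsN.splitA l188 (HoldsN.splitA (HoldsN.splitB (HoldsN.splitB l189 l190) l191) l192))) l193) (HoldsN.splitB (HoldsN.splitB (HoldsN.splitB l194 l195) l196) (HoldsN.splitB l197 (HoldsN.splitB l198 l199)))) (HoldsN.splitB l200 (HoldsN.splitA (HoldsN.splitB (HoldsN.splitA (HoldsN.splitB (HoldsN.splitA l201 (HoldsN.splitA (HoldsN.splitB l202 (HoldsN.splitB l203 l204)) (HoldsN.splitB l205 (HoldsN.splitB l206 l207)))) l208) (HoldsN.splitB l209 (HoldsN.splitA (HoldsN.splitB (HoldsN.splitA l210 l211) l212) l213))) l214) (HoldsN.splitB (HoldsN.splitB (HoldsN.splitA l215 (HoldsN.splitA (HoldsN.splitB l216 l217)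 l218)) l219) (HoldsN.splitA l220 l221)))))))

theorem root3_0 : HoldsN X3 (chamber 1 1) (chamberN 9 20) :=
  (HoldsN.splitA (HoldsN.splitA (HoldsN.splitA (HoldsN.splitB (HoldsN.splitB (HoldsN.splitB (HoldsN.splitA (HoldsN.splitB l222 l223) (HoldsN.splitB l224 (HoldsN.splitA l225 l226))) l227) (HoldsN.splitA (HoldsN.splitB l228 (HoldsN.splitB l229 l230)) (HoldsN.splitB l231 (HoldsN.splitB l232 l233)))) (HoldsN.splitA (HoldsN.splitB l246 (HoldsN.splitB (HoldsN.splitB l278 l279) l282)) (HoldsN.splitB (HoldsN.splitB l247 (HoldsN.splitB l248 l249)) (HoldsN.splitB (HoldsN.splitB l280 l281) (HoldsN.splitA l283 l284))))) (HoldsN.splitB (HoldsN.splitB (HoldsN.splitB l234 l235) l236) (HoldsN.splitB l250 (HoldsN.splitB (HoldsN.splitB (HoldsN.splitA l285 l286) l287) l288)))) (HoldsN.splitB (HoldsN.splitB (HoldsN.splitB (HoldsN.splitA l237 (HoldsN.splitA (HoldsN.splitB l238 l239) l240)) l241) (HoldsN.splitA l242 (HoldsN.splitA (HoldsN.splitB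 l243 l244) l245))) (HoldsN.splitA (HoldsN.splitB (HoldsN.splitB (HoldsN.splitA l251 (HoldsN.splitA (HoldsN.splitB (HoldsN.splitB l252 l254) l261) (HoldsN.splitB (HoldsN.splitB l253 (HoldsN.splitA (HoldsN.splitB (HoldsN.splitB (HoldsN.splitA l255 l256) l257) (HoldsN.splitA l258 l259)) l260)) l262))) (HoldsN.splitB l263 (HoldsN.splitA l264 (HoldsN.splitB (HoldsN.splitA l265 l266) l267)))) (HoldsN.splitB (HoldsN.splitB (HoldsN.splitA (HoldsN.splitA l289 l290) l291) l292) (HoldsN.splitA l297 (HoldsN.splitB (HoldsN.splitB (HoldsN.splitA l298 l299) l300) (HoldsN.splitA l301 l302))))) (HoldsN.splitA (HoldsN.splitB (HoldsN.splitB (HoldsN.splitB (HoldsN.splitB (HoldsN.splitA l268 l269) l270) (HoldsN.splitA l271 l272)) (HoldsN.splitB l273 (HoldsN.splitB l274 l275))) (HoldsN.splitB l293 l303)) (HoldsN.splitB (HoldsN.splitB l276 l277) (HoldsN.splitB (HoldsN.splitB (HoldsN.splitA l294 l295) l296) l304)))))) (HoldsN.splitA (HoldsN.splitB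 (HoldsN.splitB (HoldsN.splitB (HoldsN.splitA l305 (HoldsN.splitA l306 l307)) l308) (HoldsN.splitA (HoldsN.splitB l309 l310) (HoldsN.splitA l311 l312))) (HoldsN.splitB (HoldsN.splitA (HoldsN.splitB l313 (HoldsN.splitB l314 l315)) (HoldsN.splitA (HoldsN.splitB l316 (HoldsN.splitB (HoldsN.splitA l317 (HoldsN.splitA (HoldsN.splitB l318 (HoldsN.splitB l319 l320)) l321)) l322)) (HoldsN.splitB l323 (HoldsN.splitB l324 l325)))) (HoldsN.splitB l326 l327))) (HoldsN.splitA (HoldsN.splitB (HoldsN.splitA (HoldsN.splitB (HoldsN.splitB l328 l330) l332) (HoldsN.splitB (HoldsN.splitB l329 l331) l333)) (HoldsN.splitB (HoldsN.splitA l340 l341) (HoldsN.splitB (HoldsN.splitA l343 l344) l345))) (HoldsN.splitB (HoldsN.splitB (HoldsN.splitB (HoldsN.splitB l334 l335) l336) (HoldsN.splitB l337 (HoldsN.splitB l338 l339))) (HoldsN.splitB l342 (HoldsN.splitB l346 l347))))))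

theorem root3_1 : HoldsN X3 (chamber 1 1) (chamberNR 9 20) :=
  (HoldsN.splitA (HoldsN.splitA (HoldsN.splitA (HoldsN.splitB (HoldsN.splitB (HoldsN.splitB (HoldsN.splitA l348 l349) l350) (HoldsN.splitA l351 l352)) (HoldsN.splitA (HoldsN.splitB l363 (HoldsN.splitB (HoldsN.splitB (HoldsN.splitA l379 l380) l381) l384)) (HoldsN.splitB (HoldsN.splitB l364 (HoldsN.splitB l365 l366)) (HoldsN.splitB (HoldsN.splitB l382 l383) l385)))) (HoldsN.splitB (HoldsN.splitB (HoldsN.splitB l353 l354) l355) (HoldsN.splitB l367 (HoldsN.splitB (HoldsN.splitB (HoldsN.splitA l386 l387) l388) l389)))) (HoldsN.splitB (HoldsN.splitB (HoldsN.splitB (HoldsN.splitA l356 (HoldsN.splitA l357 l358)) l359) (HoldsN.splitA l360 (HoldsN.splitA l361 l362))) (HoldsN.splitA (HoldsN.splitB (HoldsN.splitB l368 (HoldsN.splitB l369 (HoldsN.splitA l370 (HoldsN.splitB l371 l372)))) (HoldsN.splitB (HoldsN.splitB (HoldsN.splitA (HoldsN.splitA l390 l391) l392) l393) (HoldsN.splitA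 l398 l399))) (HoldsN.splitA (HoldsN.splitB (HoldsN.splitB l373 (HoldsN.splitB l374 l375)) (HoldsN.splitB l394 l400)) (HoldsN.splitB (HoldsN.splitB l376 (HoldsN.splitB l377 l378)) (HoldsN.splitB (HoldsN.splitB (HoldsN.splitA l395 l396) l397) l401)))))) (HoldsN.splitA (HoldsN.splitB (HoldsN.splitB (HoldsN.splitB (HoldsN.splitA l402 (HoldsN.splitA l403 l404)) l405) (HoldsN.splitA l406 (HoldsN.splitA l407 l408))) (HoldsN.splitB (HoldsN.splitA (HoldsN.splitB l409 (HoldsN.splitB l410 l411)) (HoldsN.splitA (HoldsN.splitB l412 (HoldsN.splitB (HoldsN.splitA l413 (HoldsN.splitA (HoldsN.splitB l414 (HoldsN.splitB l415 l416)) l417)) l418)) (HoldsN.splitB l419 (HoldsN.splitB l420 l421)))) (HoldsN.splitB l422 l423))) (HoldsN.splitA (HoldsN.splitB (HoldsN.splitA (HoldsN.splitB (HoldsN.splitB l424 l426) l428) (HoldsN.splitB (HoldsN.splitB l425 l427) l429)) (HoldsN.splitB (HoldsN.splitA l433 l434) (HoldsN.splitB (HoldsN.splitA l436 (HoldsN.splitB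 l437 l438)) l439))) (HoldsN.splitB (HoldsN.splitB (HoldsN.splitB l430 l431) l432) (HoldsN.splitB l435 (HoldsN.splitB l440 l441))))))

theorem root4_0 : HoldsN X4 (chamber 1 1) (chamberN 9 20) :=
  (HoldsN.splitA (HoldsN.splitA (HoldsN.splitA (HoldsN.splitB (HoldsN.splitB (HoldsN.splitB (HoldsN.splitA l442 l443) l444) l445) (HoldsN.splitA (HoldsN.splitB l454 (HoldsN.splitB (HoldsN.splitB l480 l481) l484)) (HoldsN.splitB (HoldsN.splitB l455 (HoldsN.splitB l456 l457)) (HoldsN.splitB (HoldsN.splitB l482 l483) l485)))) (HoldsN.splitB l446 (HoldsN.splitB l458 (HoldsN.splitB l486 l487)))) (HoldsN.splitB (HoldsN.splitB (HoldsN.splitB (HoldsN.splitA l447 (HoldsN.splitA l448 l449)) l450) (HoldsN.splitA l451 (HoldsN.splitA l452 l453))) (HoldsN.splitA (HoldsN.splitB (HoldsN.splitB (HoldsN.splitA l459 (HoldsN.splitB (HoldsN.splitB l460 l461) l462)) (HoldsN.splitB l463 (HoldsN.splitA l464 (HoldsN.splitB l465 l466)))) (HoldsN.splitB (HoldsN.splitB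 (HoldsN.splitA (HoldsN.splitA l488 (HoldsN.splitB l489 (HoldsN.splitB l490 l491))) l492) l493) (HoldsN.splitA (HoldsN.splitA (HoldsN.splitB l499 l500) l501) (HoldsN.splitB l502 (HoldsN.splitA l503 l504))))) (HoldsN.splitA (HoldsN.splitB (HoldsN.splitB (HoldsN.splitA (HoldsN.splitB (HoldsN.splitB l467 l469) l471) (HoldsN.splitB (HoldsN.splitB l468 l470) l472)) (HoldsN.splitB l473 (HoldsN.splitB (HoldsN.splitA l474 l475) l476))) (HoldsN.splitB (HoldsN.splitB l494 l495) (HoldsN.splitB (HoldsN.splitB l505 l506) (HoldsN.splitA l507 l508)))) (HoldsN.splitB (HoldsN.splitB l477 (HoldsN.splitB l478 l479)) (HoldsN.splitB (HoldsN.splitB (HoldsN.splitA l496 l497) l498) (HoldsN.splitA l509 l510))))))) (HoldsN.splitA (HoldsN.splitB (HoldsN.splitB (HoldsN.splitB (HoldsN.splitA (HoldsN.splitB l511 l512) (HoldsN.splitA (HoldsN.splitB l513 l514) (HoldsN.splitB l515 l516))) l517) (HoldsN.splitA (HoldsN.splitB l518 (HoldsN.splitB l519 l520))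 (HoldsN.splitA (HoldsN.splitB l521 (HoldsN.splitB l522 l523)) (HoldsN.splitB l524 (HoldsN.splitB l525 l526))))) (HoldsN.splitA (HoldsN.splitB (HoldsN.splitB (HoldsN.splitA l527 (HoldsN.splitB l528 l529)) (HoldsN.splitB l530 (HoldsN.splitA l531 l532))) (HoldsN.splitB (HoldsN.splitB l543 l544) l548)) (HoldsN.splitA (HoldsN.splitB (HoldsN.splitB l533 (HoldsN.splitB (HoldsN.splitA l534 (HoldsN.splitA (HoldsN.splitB l535 (HoldsN.splitB l536 l537)) l538)) l539)) (HoldsN.splitB l545 l549)) (HoldsN.splitB (HoldsN.splitB l540 (HoldsN.splitB l541 l542)) (HoldsN.splitB (HoldsN.splitB l546 l547) l550))))) (HoldsN.splitA (HoldsN.splitB (HoldsN.splitA (HoldsN.splitB (HoldsN.splitB l551 l553) l556) (HoldsN.splitB (HoldsN.splitB l552 (HoldsN.splitA l554 l555)) l557)) (HoldsN.splitB l564 (HoldsN.splitB (HoldsN.splitA (HoldsN.splitB l566 l567) l568) l569))) (HoldsN.splitB (HoldsN.splitB (HoldsN.splitB (HoldsN.splitB l558 l559) l560) (HoldsN.splitB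 l561 (HoldsN.splitB l562 l563))) (HoldsN.splitB l565 (HoldsN.splitB l570 l571))))))

theorem root4_1 : HoldsN X4 (chamber 1 1) (chamberNR 9 20) :=
  (HoldsN.splitA (HoldsN.splitA (HoldsN.splitA (HoldsN.splitB (HoldsN.splitB (HoldsN.splitB (HoldsN.splitA l572 l573) l574) (HoldsN.splitA l575 l576)) (HoldsN.splitA (HoldsN.splitB l585 (HoldsN.splitB (HoldsN.splitB l606 l607) l610)) (HoldsN.splitB (HoldsN.splitB l586 (HoldsN.splitB l587 l588)) (HoldsN.splitB (HoldsN.splitB l608 l609) l611)))) (HoldsN.splitB l577 (HoldsN.splitB l589 (HoldsN.splitB l612 l613)))) (HoldsN.splitB (HoldsN.splitB (HoldsN.splitB (HoldsN.splitA l578 (HoldsN.splitA l579 l580)) l581) (HoldsN.splitA l582 (HoldsN.splitA l583 l584))) (HoldsN.splitA (HoldsN.splitB (HoldsN.splitB (HoldsN.splitA l590 (HoldsN.splitB l591 l592)) (HoldsN.splitB l593 (HoldsN.splitA l594 l595))) (HoldsN.splitB (HoldsN.splitB (HoldsN.splitA (HoldsN.splitA l614 (HoldsN.splitB l615 (HoldsN.splitB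 l616 l617))) l618) l619) (HoldsN.splitA (HoldsN.splitA l625 l626) l627))) (HoldsN.splitA (HoldsN.splitB (HoldsN.splitB (HoldsN.splitB (HoldsN.splitB l596 l597) l598) (HoldsN.splitB l599 (HoldsN.splitB (HoldsN.splitA l600 l601) l602))) (HoldsN.splitB (HoldsN.splitB l620 l621) l628)) (HoldsN.splitB (HoldsN.splitB l603 (HoldsN.splitB l604 l605)) (HoldsN.splitB (HoldsN.splitB (HoldsN.splitA l622 l623) l624) l629)))))) (HoldsN.splitA (HoldsN.splitB (HoldsN.splitB (HoldsN.splitB (HoldsN.splitA (HoldsN.splitB l630 l631) (HoldsN.splitA l632 l633)) l634) (HoldsN.splitA (HoldsN.splitB l635 (HoldsN.splitB l636 l637)) (HoldsN.splitA (HoldsN.splitB l638 l639) l640))) (HoldsN.splitA (HoldsN.splitB (HoldsN.splitB l641 (HoldsN.splitB l642 l643)) (HoldsN.splitB (HoldsN.splitB l654 l655) l659)) (HoldsN.splitA (HoldsN.splitB (HoldsN.splitB l644 (HoldsN.splitB (HoldsN.splitA l645 (HoldsN.splitA (HoldsN.splitB l646 (HoldsN.splitB l647 l648)) l649))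 l650)) (HoldsN.splitB l656 l660)) (HoldsN.splitB (HoldsN.splitB l651 (HoldsN.splitB l652 l653)) (HoldsN.splitB (HoldsN.splitB l657 l658) l661))))) (HoldsN.splitA (HoldsN.splitB (HoldsN.splitA (HoldsN.splitB (HoldsN.splitB l662 l664) l666) (HoldsN.splitB (HoldsN.splitB l663 l665) l667)) (HoldsN.splitB l671 (HoldsN.splitB (HoldsN.splitA (HoldsN.splitB l673 l674) l675) l676))) (HoldsN.splitB (HoldsN.splitB (HoldsN.splitB l668 l669) l670) (HoldsN.splitB l672 (HoldsN.splitB l677 l678))))))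

theorem root5_0 : HoldsN X5 (chamber 1 1) (chamberN 9 20) :=
  (HoldsN.splitA (HoldsN.splitA (HoldsN.splitA (HoldsN.splitB (HoldsN.splitB (HoldsN.splitB (HoldsN.splitA l679 (HoldsN.splitB l680 l681)) l682) (HoldsN.splitA l683 (HoldsN.splitB l684 (HoldsN.splitB l685 l686)))) (HoldsN.splitA (HoldsN.splitB l704 (HoldsN.splitB l742 l745)) (HoldsN.splitB (HoldsN.splitB l705 (HoldsN.splitB l706 l707)) (HoldsN.splitB (HoldsN.splitB l743 l744) l746)))) (HoldsN.splitB (HoldsN.splitB (HoldsN.splitB l687 l688) (HoldsN.splitB l689 l690)) (HoldsN.splitB (HoldsN.splitB l708 l709) (HoldsN.splitB (HoldsN.splitB l747 l748) l749)))) (HoldsN.splitA (HoldsN.splitB (HoldsN.splitB (HoldsN.splitB l691 (HoldsN.splitA (HoldsN.splitA l694 l695) (HoldsN.splitB (HoldsN.splitB l696 (HoldsN.splitA l697 l698)) l699))) l701) (HoldsN.splitB (HoldsN.splitB (HoldsN.splitA (HoldsN.splitA (HoldsN.splitB (HoldsN.splitB l710 l711) l712) l713) (HoldsN.splitB (HoldsN.splitB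 l714 (HoldsN.splitA (HoldsN.splitA l715 (HoldsN.splitB l716 l717)) l718)) l719)) (HoldsN.splitB l720 (HoldsN.splitA (HoldsN.splitA (HoldsN.splitB l721 l722) l723) (HoldsN.splitB (HoldsN.splitA (HoldsN.splitB l724 (HoldsN.splitA l725 (HoldsN.splitB l726 l727))) (HoldsN.splitA (HoldsN.splitB l728 l729) l730)) l731)))) (HoldsN.splitA (HoldsN.splitA (HoldsN.splitB (HoldsN.splitB l750 l753) (HoldsN.splitB l763 l764)) (HoldsN.splitB (HoldsN.splitB l751 l754) l765)) (HoldsN.splitB (HoldsN.splitB l752 (HoldsN.splitB (HoldsN.splitA (HoldsN.splitB l755 l756) l757) l758)) (HoldsN.splitB l766 l767))))) (HoldsN.splitB (HoldsN.splitB (HoldsN.splitB (HoldsN.splitA l692 l693) l700) (HoldsN.splitA l702 l703)) (HoldsN.splitA (HoldsN.splitB (HoldsN.splitB (HoldsN.splitB (HoldsN.splitB l732 l733) l734) (HoldsN.splitB l735 (HoldsN.splitB (HoldsN.splitA l736 l737) l738))) (HoldsN.splitB (HoldsN.splitB l759 l760) (HoldsN.splitB l768 l769))) (HoldsN.splitB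 (HoldsN.splitB l739 (HoldsN.splitB l740 l741)) (HoldsN.splitB (HoldsN.splitB l761 l762) (HoldsN.splitA l770 l771))))))) (HoldsN.splitA (HoldsN.splitA (HoldsN.splitB (HoldsN.splitB (HoldsN.splitB (HoldsN.splitB l772 (HoldsN.splitA l773 l774)) l779) (HoldsN.splitB l782 (HoldsN.splitB l783 l784))) (HoldsN.splitB (HoldsN.splitB (HoldsN.splitA l791 (HoldsN.splitB (HoldsN.splitB l792 l793) l794)) (HoldsN.splitB l795 (HoldsN.splitA l796 l797))) (HoldsN.splitB (HoldsN.splitB l811 l812) (HoldsN.splitA l817 l818)))) (HoldsN.splitA (HoldsN.splitB (HoldsN.splitB (HoldsN.splitB (HoldsN.splitB l775 l776) l780) (HoldsN.splitB l785 (HoldsN.splitB l786 l787))) (HoldsN.splitB (HoldsN.splitB (HoldsN.splitB (HoldsN.splitB l798 l799) l800) (HoldsN.splitB (HoldsN.splitA l801 (HoldsN.splitA (HoldsN.splitB l802 (HoldsN.splitB l803 l804)) l805)) (HoldsN.splitB l806 l807))) (HoldsN.splitB (HoldsN.splitB l813 l814) l819))) (HoldsN.splitB (HoldsN.splitB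 (HoldsN.splitB (HoldsN.splitB l777 l778) l781) (HoldsN.splitB l788 (HoldsN.splitB l789 l790))) (HoldsN.splitB (HoldsN.splitB l808 (HoldsN.splitB l809 l810)) (HoldsN.splitB (HoldsN.splitB l815 l816) l820))))) (HoldsN.splitA (HoldsN.splitB (HoldsN.splitA (HoldsN.splitB (HoldsN.splitB l821 (HoldsN.splitB (HoldsN.splitB l823 (HoldsN.splitA l824 l825)) l826)) l829) (HoldsN.splitB (HoldsN.splitB l822 (HoldsN.splitA l827 l828)) (HoldsN.splitB l830 l831))) (HoldsN.splitB (HoldsN.splitA l838 (HoldsN.splitB l839 l840)) (HoldsN.splitB (HoldsN.splitA (HoldsN.splitB l844 (HoldsN.splitB (HoldsN.splitA l845 l846) l847)) (HoldsN.splitA (HoldsN.splitB l848 l850) (HoldsN.splitB l849 l851))) l852))) (HoldsN.splitB (HoldsN.splitB (HoldsN.splitB (HoldsN.splitB l832 l833) l834) (HoldsN.splitB l835 (HoldsN.splitB l836 l837))) (HoldsN.splitB (HoldsN.splitB l841 (HoldsN.splitB l842 l843)) (HoldsN.splitB (HoldsN.splitB l853 l854) l855))))))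

theorem root5_1 : HoldsN X5 (chamber 1 1) (chamberNR 9 20) :=
  (HoldsN.splitA (HoldsN.splitA (HoldsN.splitA (HoldsN.splitB (HoldsN.splitB (HoldsN.splitB (HoldsN.splitA l856 l857) l858) (HoldsN.splitA l859 l860)) (HoldsN.splitB (HoldsN.splitA l879 (HoldsN.splitB l880 (HoldsN.splitB l881 l882))) (HoldsN.splitB (HoldsN.splitA l911 (HoldsN.splitB l912 l913)) l914))) (HoldsN.splitB (HoldsN.splitB (HoldsN.splitB l861 l862) (HoldsN.splitB (HoldsN.splitA l863 l864) l865)) (HoldsN.splitB (HoldsN.splitB l883 l884) (HoldsN.splitB (HoldsN.splitB (HoldsN.splitA l915 l916) l917) l918)))) (HoldsN.splitA (HoldsN.splitB (HoldsN.splitB (HoldsN.splitB l866 (HoldsN.splitA (HoldsN.splitA l869 l870) (HoldsN.splitB (HoldsN.splitB l871 (HoldsN.splitA l872 l873)) l874))) l876) (HoldsN.splitB (HoldsN.splitB (HoldsN.splitA (HoldsN.splitA l885 l886) (HoldsN.splitB (HoldsN.splitB l887 (HoldsN.splitA l888 l889)) l890)) (HoldsN.splitB l891 (HoldsN.splitA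 l892 (HoldsN.splitB (HoldsN.splitA (HoldsN.splitB l893 (HoldsN.splitA l894 (HoldsN.splitB l895 l896))) (HoldsN.splitA (HoldsN.splitB l897 l898) l899)) l900)))) (HoldsN.splitA (HoldsN.splitB (HoldsN.splitA (HoldsN.splitB l919 l922) (HoldsN.splitB l920 l923)) l932) (HoldsN.splitB (HoldsN.splitB l921 (HoldsN.splitB (HoldsN.splitA (HoldsN.splitB l924 l925) l926) l927)) (HoldsN.splitB l933 l934))))) (HoldsN.splitB (HoldsN.splitB (HoldsN.splitB (HoldsN.splitA l867 l868) l875) (HoldsN.splitA l877 l878)) (HoldsN.splitA (HoldsN.splitB (HoldsN.splitB (HoldsN.splitB (HoldsN.splitB l901 l902) l903) (HoldsN.splitB l904 (HoldsN.splitB (HoldsN.splitA l905 l906) l907))) (HoldsN.splitB (HoldsN.splitB l928 l929) l935)) (HoldsN.splitB (HoldsN.splitB l908 (HoldsN.splitB l909 l910)) (HoldsN.splitB (HoldsN.splitB l930 l931) l936)))))) (HoldsN.splitA (HoldsN.splitA (HoldsN.splitB (HoldsN.splitB (HoldsN.splitB (HoldsN.splitB l937 l938) l943) (HoldsN.splitB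 l946 (HoldsN.splitB l947 l948))) (HoldsN.splitB (HoldsN.splitB (HoldsN.splitA l955 l956) (HoldsN.splitB l957 (HoldsN.splitA l958 l959))) (HoldsN.splitB (HoldsN.splitB l973 l974) l979))) (HoldsN.splitA (HoldsN.splitB (HoldsN.splitB (HoldsN.splitB (HoldsN.splitB l939 l940) l944) (HoldsN.splitB l949 (HoldsN.splitB l950 l951))) (HoldsN.splitB (HoldsN.splitB (HoldsN.splitB (HoldsN.splitB l960 l961) l962) (HoldsN.splitB (HoldsN.splitA l963 (HoldsN.splitA (HoldsN.splitB l964 (HoldsN.splitB l965 l966)) l967)) (HoldsN.splitB l968 l969))) (HoldsN.splitB (HoldsN.splitB l975 l976) l980))) (HoldsN.splitB (HoldsN.splitB (HoldsN.splitB (HoldsN.splitB l941 l942) l945) (HoldsN.splitB l952 (HoldsN.splitB l953 l954))) (HoldsN.splitB (HoldsN.splitB l970 (HoldsN.splitB l971 l972)) (HoldsN.splitB (HoldsN.splitB l977 l978) l981))))) (HoldsN.splitA (HoldsN.splitB (HoldsN.splitA (HoldsN.splitB (HoldsN.splitB l982 (HoldsN.splitB (HoldsN.splitB l984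 (HoldsN.splitA l985 l986)) l987)) l990) (HoldsN.splitB (HoldsN.splitB l983 (HoldsN.splitA l988 l989)) (HoldsN.splitB (HoldsN.splitA l991 l992) l993))) (HoldsN.splitB (HoldsN.splitA l998 (HoldsN.splitB l999 l1000)) (HoldsN.splitB (HoldsN.splitA (HoldsN.splitB l1004 (HoldsN.splitB (HoldsN.splitA l1005 l1006) l1007)) (HoldsN.splitA (HoldsN.splitB l1008 l1010) (HoldsN.splitB l1009 l1011))) l1012))) (HoldsN.splitB (HoldsN.splitB (HoldsN.splitB l994 l995) (HoldsN.splitB l996 l997)) (HoldsN.splitB (HoldsN.splitB l1001 (HoldsN.splitB l1002 l1003)) (HoldsN.splitB (HoldsN.splitB l1013 l1014) l1015))))))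

theorem merge2 (a c : Tp) (ha : InSx 1 a) (hc : InSx 1 c) :
    KT (potL X2.Lc) (sc ss a) (sc ss c) ≤ X2.rhs (sc ss a) (sc ss c) :=
  KT_le_all2 (by norm_num) (by norm_num) root2_0 root2_1 a c ha hc

theorem merge3 (a c : Tp) (ha : InSx 1 a) (hc : InSx 1 c) :
    KT (potL X3.Lc) a (sc ss c) ≤ X3.rhs a (sc ss c) :=
  KT_le_all (by norm_num) (by norm_num) root3_0 root3_1 a c ha hc

theorem merge4 (a c : Tp) (ha : InSx 1 a) (hc : InSx 1 c) :
    KT (potL X4.Lc) a (sc ss c) ≤ X4.rhs a (sc ss c) :=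
  KT_le_all (by norm_num) (by norm_num) root4_0 root4_1 a c ha hc

theorem merge5 (a c : Tp) (ha : InSx 1 a) (hc : InSx 1 c) :
    KT (potL X5.Lc) a (sc ss c) ≤ X5.rhs a (sc ss c) :=
  KT_le_all (by norm_num) (by norm_num) root5_0 root5_1 a c ha hc


end

end Vale.Agent.Lib.P154N.D5
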